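import Crest.Agent.N218.In.Defs
import Crest.Agent.N218.Sk.Mid

/-! # Row 218, block INST (helper21): the embeddings and the two instances -/

set_option autoImplicit false

open Set Topology Module

noncomputable section

namespace Crest.Agent.N218.In

open K Pm

theorem ang_at {w : ℂ} (h : w ≠ 0) : ContinuousAt ang w := by
  have e : ang = AddCircle.homeomorphAddCircle (2 * Real.pi) 1 (by positivity) one_ne_zero ∘
      ((↑) ∘ Complex.arg : ℂ → Real.Angle) := funext fun w => by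
    change _ = AddCircle.homeomorphAddCircle _ _ _ _ ((w.arg : ℝ) : AddCircle (2 * Real.pi))
    rw [AddCircle.homeomorphAddCircle_apply_mk, mul_one]; rfl
  rw [e]
  exact (Homeomorph.continuous _).continuousAt.comp (Complex.continuousAt_arg_coe_angle h)

theorem ang_on : ContinuousOn ang {w | w ≠ 0} := fun _ h => (ang_at h).continuousWithinAt

theorem log_on {E : Type} [NormedAddCommGroup E] :
    ContinuousOn (fun p : E => Real.log ‖p‖) {p | p ≠ 0} :=
  continuous_norm.continuousOn.log fun _ h => norm_ne_zero_iff.2 h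

theorem log_zero {E : Type} [NormedAddCommGroup E] {p : E} (h : p ≠ 0) :
    Real.log ‖p‖ = 0 ↔ ‖p‖ = 1 :=
  ⟨Real.eq_one_of_pos_of_log_eq_zero (norm_pos_iff.2 h), fun e => by rw [e, Real.log_one]⟩

namespace Emb

/-- products -/
def prod {Y B C Y' B' C' : Type} [TopologicalSpace Y] [TopologicalSpace B] [TopologicalSpace C]
    [Zero C] [TopologicalSpace Y'] [TopologicalSpace B'] [TopologicalSpace C'] [Zero C']
    [T2Space Y] [T2Space Y'] [T2Space B] [T2Space B'] (e : Emb Y B C) (e' : Emb Y' B' C') :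
    Emb (Y × Y') (B × B') (C × C') where
  Ω := e.Ω ×ˢ e'.Ω
  π p := (e.π p.1, e'.π p.2)
  n p := (e.n p.1, e'.n p.2)
  op := e.op.prod e'.op
  cπ := e.cπ.prodMap e'.cπ
  cn := e.cn.prodMap e'.cn
  cp K hK := by
    have c := (e.cp _ (hK.image continuous_fst)).prod (e'.cp _ (hK.image continuous_snd))
    have d := ((e.cπ.prodMap e'.cπ).mono (show _ ⊆ e.Ω ×ˢ e'.Ω from fun p h =>
      ⟨h.1.1, h.2.1⟩)).preimage_isClosed_of_isClosed c.isClosed hK.isClosed
    convert c.of_isClosed_subset d inter_subset_left using 1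
    ext p
    exact ⟨fun ⟨a, b, c⟩ => ⟨⟨⟨a.1, congrArg Prod.fst b, _, c, rfl⟩,
      a.2, congrArg Prod.snd b, _, c, rfl⟩, c⟩,
      fun ⟨⟨a, b⟩, c⟩ => ⟨⟨a.1, b.1⟩, Prod.ext a.2.1 b.2.1, c⟩⟩

/-- the real axis -/
def rl : Emb ℝ ℂ ℝ where
  Ω := univ
  π := Complex.re
  n := Complex.im
  op := isOpen_univ
  cπ := Complex.continuous_re.continuousOn
  cn := Complex.continuous_im.continuousOn
  cp K hK := by
    convert hK.image Complex.continuous_ofReal using 1
    ext p
    exact ⟨fun ⟨_, a, b⟩ => ⟨_, b, Complex.ext rfl a.symm⟩, by rintro ⟨x, a, rfl⟩; simpa using a⟩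

/-- the unit circle -/
def cr : Emb UnitAddCircle ℂ ℝ where
  Ω := {w | w ≠ 0}
  π := ang
  n w := Real.log ‖w‖
  op := isOpen_ne
  cπ := ang_on
  cn := log_on
  cp K hK := by
    have c := isCompact_sphere (0 : ℂ) 1
    have d := (ang_on.mono (show Metric.sphere (0 : ℂ) 1 ⊆ _ from fun p h e => by
      simp [e] at h)).preimage_isClosed_of_isClosed c.isClosed hK.isClosed
    convert c.of_isClosed_subset d inter_subset_left using 1
    ext p
    refine ⟨fun ⟨a, b, c⟩ => ⟨mem_sphere_zero_iff_norm.2 ((log_zero a).1 b), c⟩, fun ⟨a, b⟩ => ?_⟩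
    have a := mem_sphere_zero_iff_norm.1 a
    exact ⟨fun e => by simp [e] at a, by rw [a, Real.log_one], b⟩

section sph
variable (E : Type) [NormedAddCommGroup E] [NormedSpace ℝ E] [Nontrivial E]

open Classical in
/-- the radial projection -/
def rad (p : E) : Metric.sphere (0 : E) 1 :=
  if h : p = 0 then ⟨_, (NormedSpace.sphere_nonempty.2 zero_le_one).some_mem⟩
  else ⟨‖p‖⁻¹ • p, mem_sphere_zero_iff_norm.2 (norm_smul_inv_norm (𝕜 := ℝ) h)⟩

variable {E} in
theorem rad_coe {p : E} (h : p ≠ 0) : (rad E p : E) = ‖p‖⁻¹ • p := by rw [rad, dif_neg h]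

variable {E} in
theorem rad_one {p : E} (h : ‖p‖ = 1) : (rad E p : E) = p := by
  rw [rad_coe fun e => by simp [e] at h, h, inv_one, one_smul]

variable {E} in
theorem rad_val (x : Metric.sphere (0 : E) 1) : rad E x = x :=
  Subtype.ext (rad_one (mem_sphere_zero_iff_norm.1 x.2))

theorem rad_on : ContinuousOn (rad E) {p | p ≠ 0} :=
  IsInducing.subtypeVal.continuousOn_iff.2 (((continuous_norm.continuousOn.inv₀ fun _ h =>
    norm_ne_zero_iff.2 h).smul continuousOn_id).congr fun _ h => rad_coe h)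

/-- the unit sphere -/
def sph : Emb (Metric.sphere (0 : E) 1) E ℝ where
  Ω := {p | p ≠ 0}
  π := rad E
  n p := Real.log ‖p‖
  op := isOpen_ne
  cπ := rad_on E
  cn := log_on
  cp K hK := by
    convert hK.image continuous_subtype_val using 1
    ext p
    refine ⟨fun ⟨a, b, c⟩ => ⟨_, c, rad_one ((log_zero a).1 b)⟩, ?_⟩
    rintro ⟨x, a, rfl⟩
    exact ⟨ne_zero_of_mem_unit_sphere x, by rw [mem_sphere_zero_iff_norm.1 x.2, Real.log_one],
      (rad_val x).symm ▸ a⟩
end sph

variable {Y B C : Type} [TopologicalSpace Y] [T2Space Y] [NormedAddCommGroup B]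
  [NormedAddCommGroup C] (e : Emb Y B C)

/-- the line over `e` -/
def line : Emb (Y × ℝ) (B × ℂ) (C × ℝ) := e.prod rl
/-- the circle over `e` -/
def circ : Emb (Y × UnitAddCircle) (B × ℂ) (C × ℝ) := e.prod cr

theorem line_ok : e.Line e.line := ⟨fun _ => and_iff_left trivial, fun _ => rfl, fun _ => rfl⟩
theorem circ_ok : e.Circ e.circ := ⟨fun _ => Iff.rfl, fun _ => rfl, fun _ => rfl⟩
end Emb

/-- `ℝ³` -/
abbrev E3 : Type := EuclideanSpace ℝ (Fin 3)
/-- `S¹¹ ⊆ ℝ¹²` -/
def e11 : Emb Sk.S11 C.X ℝ := Emb.sph C.X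
/-- `S² × S² ⊆ ℝ³ × ℝ³` -/
def e22 : Emb Sk.X22 (E3 × E3) (ℝ × ℝ) := (Emb.sph E3).prod (Emb.sph E3)

variable (g : GEN) (p : PAN) (s : CST)

/-- **the theory over `S¹¹`** -/
def i11 (J : AI 12) : Th Sk.S11 QQ :=
  th g p s J e11 (by simp) e11.line e11.circ e11.line_ok e11.circ_ok
/-- **the theory over `S² × S²`** -/
def i22 (J : AI 5) : Th Sk.X22 QQ :=
  th g p s J e22 (by simp) e22.line e22.circ e22.line_ok e22.circ_ok

theorem i11_pa (J : AI 12) : (i11 g p s J).pa = e11.line.inv J := rfl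
theorem i11_an (J : AI 12) : (i11 g p s J).an = e11.circ.inv J := rfl

end Crest.Agent.N218.In

end
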