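import Crest.Agent.N218.D7.Nf1
import Crest.Agent.N218.D7.St
import Crest.Agent.N218.Pm.Kit2
import Crest.Agent.N218.Pm.Loop0
import Crest.Agent.N218.Pm.Cj
import Crest.Agent.N218.In.Defs
import Crest.Agent.N218.In.Emb

-- ▼ part N218/D7/Nf
section

/-!
# Row 218, block D7 (helper99): normal form of a stabilised family of pointed maps
-/

set_option autoImplicit false
set_option linter.unusedSectionVars false
open Topology Filter Set OnePoint unitInterval

noncomputable section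

namespace Crest.Agent.N218.Nf

variable {B : Type*} [TopologicalSpace B] {V : Type*} [NormedAddCommGroup V] [NormedSpace ℝ V]
  [FiniteDimensional ℝ V]

/-- uniformly proper families -/
def UP {P E E' : Type*} [Norm E] [Norm E'] (f : P × E → E') : Prop :=
  ∀ c : ℝ, ∃ R : ℝ, ∀ x y, R ≤ ‖y‖ → c ≤ ‖f (x, y)‖

/-- extension of a family by `∞` -/
def ext {P E E' : Type*} (f : P × E → E') (z : P × OnePoint E) : OnePoint E' :=
  z.2.map fun y => f (z.1, y)

theorem continuous_ext {P E E' : Type*} [TopologicalSpace P] [NormedAddCommGroup E] [ProperSpace E]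
    [NormedAddCommGroup E'] {f : P × E → E'} (hf : Continuous f) (h : UP f) : Continuous (ext f) := by
  have a : Continuous fun z : P × OnePoint E => sa z.2 := continuous_sa.comp continuous_snd
  refine (continuous_cut (χ := fun z : P × OnePoint E => sa z.2) (f := fun z => f (z.1, fin z.2)) a
    (fun z k => hf.continuousAt.comp (continuousAt_fst.prodMk
      ((continuousAt_fin k).comp continuousAt_snd))) fun z k c => ?_).congr fun ⟨x, s⟩ => ?_
  · obtain ⟨R, hR⟩ := h (c + 1)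
    filter_upwards [blow (χ := fun z : P × OnePoint E => sa z.2) (f := fun z => fin z.2) a
      (continuous_const.sub a) k (by simp [k] : 0 < 1 - sa z.2) (fun y d => (sa_mul _ d).ge) R]
      with y hy d
    linarith [hR y.1 _ (hy d).le]
  · induction s using OnePoint.rec with
    | infty => exact cut_zero _ rfl
    | coe w => exact cut_ne _ (sa_pos w).ne'

/-- an honest proper family can be made the identity near `0` -/
theorem near {f : B × V → V} (hf : Continuous f) (h : UP f) {a : ℝ} (ha : 0 < a) :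
    ∃ K : (I × B) × V → V, Continuous K ∧ UP K ∧ (∀ x y, K ((0, x), y) = f (x, y)) ∧
      (∀ x y, ‖y‖ ≤ a → K ((1, x), y) = y) ∧ ∀ t x y, f (x, y) = y → K ((t, x), y) = y := by
  refine ⟨fun z => f (z.1.2, z.2) + (z.1.1 * max 0 (min 1 (2 - ‖z.2‖ / a))) • (z.2 - f (z.1.2, z.2)),
    by fun_prop, fun c => ?_, fun x y => by simp, fun x y k => ?_, fun t x y k => by simp [k]⟩
  · obtain ⟨R, hR⟩ := h c
    refine ⟨max R (2 * a), fun x y k => ?_⟩
    have : 2 - ‖y‖ / a ≤ 0 := by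
      rw [sub_nonpos, le_div_iff₀ ha]; exact (le_max_right _ _).trans k
    simpa [max_eq_left (min_le_of_right_le this)] using hR x.2 y ((le_max_left _ _).trans k)
  · have : 1 ≤ 2 - ‖y‖ / a := by linarith [(div_le_one ha).2 k]
    simp [min_eq_left this]

variable {W E' : Type*} [NormedAddCommGroup W] [NormedSpace ℝ W] [FiniteDimensional ℝ W]
  [NormedAddCommGroup E'] [NormedSpace ℝ E'] [FiniteDimensional ℝ E']

/-- the suspension of a pointed family is homotopic to an honest proper family -/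
theorem honest [Nontrivial E'] {v : B × OnePoint W → OnePoint W} (hv : Continuous v)
    (h0 : ∀ x, v (x, ∞) = ∞) : ∃ (H : I × B × OnePoint (W × E') → OnePoint (W × E'))
      (f : B × (W × E') → W × E'), Continuous H ∧ Continuous f ∧ UP f ∧ (∀ t x, H (t, x, ∞) = ∞) ∧
      (∀ x, (∀ s, v (x, s) = s) → ∀ t y, H (t, x, y) = y) ∧
      (∀ x (w : W) (e : E'), H (0, x, ((w, e) : W × E')) = (v (x, w)).map fun w' => (w', e)) ∧
      ∀ x (y : W × E'), H (1, x, y) = f (x, y) := by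
  obtain ⟨n, hn⟩ := Nat.exists_eq_succ_of_ne_zero (Module.finrank_pos (R := ℝ) (M := E')).ne'
  let e : E' ≃L[ℝ] (Fin n → ℝ) × ℝ := .ofFinrankEq (by simp [hn])
  let L : (W × E') ≃L[ℝ] (W × (Fin n → ℝ)) × ℝ :=
    ((ContinuousLinearEquiv.refl ℝ W).prodCongr e).trans (ContinuousLinearEquiv.prodAssoc ℝ ..).symm
  have := FiniteDimensional.proper_real W
  have := FiniteDimensional.proper_real (W × E')
  obtain ⟨U, u1, u2, u3⟩ := smash (F := Fin n → ℝ) hv h0
  obtain ⟨H, a, b, c, d, k⟩ := bend u1 u2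
  choose g k k' using k
  have cL := L.toHomeomorph.onePointCongr.continuous
  have cL' := L.symm.toHomeomorph.onePointCongr.continuous
  have cg : Continuous fun z : B × ((W × (Fin n → ℝ)) × ℝ) => g z.1 z.2 :=
    isOpenEmbedding_coe.isEmbedding.continuous_iff.2 ((a.comp (continuous_fst.prodMk
      (continuous_const.prodMk (continuous_coe.comp continuous_snd)))).congr fun z => k z.1 z.2)
  refine ⟨fun z => (H (z.2.1, z.1, z.2.2.map L)).map L.symm, fun z => L.symm (g z.1 (L z.2)),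
    cL'.comp (a.comp (continuous_snd.fst.prodMk (continuous_fst.prodMk
      (cL.comp continuous_snd.snd)))), L.symm.continuous.comp (cg.comp (continuous_fst.prodMk
      (L.continuous.comp continuous_snd))), fun r => ?_, fun t x => by simp [b], fun x h t y => ?_,
    fun x w e' => ?_, fun x y => by simp [k]⟩
  · obtain ⟨M, M0, hM⟩ := L.toContinuousLinearMap.bound
    obtain ⟨M', M0', hM'⟩ := L.symm.toContinuousLinearMap.bound
    refine ⟨M' * (2 * (M * |r|) ^ 2 + M * |r| + 2), fun x y hy => not_lt.1 fun l => ?_⟩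
    have p : ‖g x (L y)‖ ≤ M * |r| := by
      have := hM (L.symm (g x (L y)))
      simp only [ContinuousLinearEquiv.coe_coe, ContinuousLinearEquiv.apply_symm_apply] at this
      exact this.trans (mul_le_mul_of_nonneg_left (l.le.trans (le_abs_self r)) M0.le)
    have q : 2 * (M * |r|) ^ 2 + M * |r| + 2 ≤ ‖L y‖ := by
      have := hM' (L y)
      simp only [ContinuousLinearEquiv.coe_coe, ContinuousLinearEquiv.symm_apply_apply] at this
      exact le_of_mul_le_mul_left (hy.trans this) M0'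
    have s1 := (le_abs_self _).trans (norm_snd_le (g x (L y)))
    have s2 := (neg_le_abs _).trans (norm_snd_le (L y))
    have s3 := pow_le_pow_left₀ (norm_nonneg _) p 2
    have : 0 ≤ M * |r| := by positivity
    nlinarith [k' x (L y), nn_le (g x (L y)), le_nn (L y), sq_nonneg (M * |r|)]
  · have : ∀ s, U (x, s) = s := fun s => by
      induction s using OnePoint.rec with
      | infty => exact u2 x
      | coe y => exact (u3 x y.1 y.2).trans (by simp [h])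
    induction y using OnePoint.rec <;> simp [c x this]
  · have : L (w, e') = ((w, (e e').1), (e e').2) := rfl
    simp only [map_some, this, d, u3]
    induction v (x, w) using OnePoint.rec with
    | infty => rfl
    | coe w' => exact congrArg _ (L.symm_apply_apply (w', e'))

/-- **normal form** -/
theorem nf [Nontrivial E'] {v : B × OnePoint W → OnePoint W} (hv : Continuous v)
    (h0 : ∀ x, v (x, ∞) = ∞) {A : Set B} (hA : ∀ x ∈ A, ∀ s, v (x, s) = s) {a : ℝ} (ha : 0 < a) :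
    ∃ (v' : B × (W × E') → W × E') (H : I × B × OnePoint (W × E') → OnePoint (W × E')),
      Continuous v' ∧ (∀ x y, ‖y‖ ≤ a ∨ x ∈ A → v' (x, y) = y) ∧
      (∀ c : ℝ, ∃ R : ℝ, ∀ x y, R ≤ ‖y‖ → c ≤ ‖v' (x, y)‖) ∧ Continuous H ∧
      (∀ t x, H (t, x, ∞) = ∞) ∧
      (∀ x (w : W) (e : E'), H (0, x, ((w, e) : W × E')) = (v (x, w)).map fun w' => (w', e)) ∧
      (∀ x (y : W × E'), H (1, x, y) = v' (x, y)) ∧ ∀ t, ∀ x ∈ A, ∀ y, H (t, x, y) = y := by
  have := FiniteDimensional.proper_real (W × E')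
  obtain ⟨H, f, a1, a2, a3, a4, a5, a6, a7⟩ := honest (E' := E') hv h0
  obtain ⟨K, b1, b2, b3, b4, b5⟩ := near a2 a3 ha
  have c := continuous_ext b1 b2
  have fA : ∀ x ∈ A, ∀ y, f (x, y) = y := fun x k y =>
    coe_injective ((a7 x y).symm.trans (a5 x (hA x k) 1 y))
  let K' : I × B × OnePoint (W × E') → OnePoint (W × E') := fun z => ext K ((z.1, z.2.1), z.2.2)
  have c' : Continuous K' := c.comp (by fun_prop)
  let H1 : ContinuousMap.Homotopy (⟨fun z => H (0, z), by fun_prop⟩ : C(_, _))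
    (⟨fun z => H (1, z), by fun_prop⟩ : C(_, _)) := ⟨⟨H, a1⟩, fun _ => rfl, fun _ => rfl⟩
  let H2 : ContinuousMap.Homotopy (⟨fun z => H (1, z), by fun_prop⟩ : C(_, _))
    (⟨fun z => K' (1, z), by fun_prop⟩ : C(_, _)) := ⟨⟨K', c'⟩, fun ⟨x, s⟩ => by
      induction s using OnePoint.rec with
      | infty => exact (a4 1 x).symm
      | coe y => exact (congrArg _ (b3 x y)).trans (a7 x y).symm, fun _ => rfl⟩
  refine ⟨fun z => K ((1, z.1), z.2), H1.trans H2, by fun_prop, fun x y k => ?_, fun r => ?_,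
    (H1.trans H2).continuous, fun t x => ?_, fun x w e => ?_, fun x y => (H1.trans H2).apply_one _,
    fun t x k y => ?_⟩
  · exact k.elim (b4 x y) fun k => b5 1 x y (fA x k y)
  · exact (b2 r).imp fun R h x y => h (1, x) y
  · rw [ContinuousMap.Homotopy.trans_apply]; split_ifs
    exacts [a4 _ x, rfl]
  · exact ((H1.trans H2).apply_zero _).trans (a6 x w e)
  · rw [ContinuousMap.Homotopy.trans_apply]; split_ifs
    · exact a5 x (hA x k) _ y
    · induction y using OnePoint.rec with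
      | infty => rfl
      | coe y => exact congrArg _ (b5 _ x y (fA x k y))

end Crest.Agent.N218.Nf
end
end

-- ▼ part N218/D7/Nft
section

/-!
# Row 218 (helper78): the normal form of the orbit loop
-/

set_option autoImplicit false
set_option linter.unusedSectionVars false

open Set OnePoint unitInterval Metric
open scoped InnerProductSpace

noncomputable section

namespace Crest.Agent.N218.D7

open Pm Pm.Lo

namespace Nft

variable {B E : Type} [TopologicalSpace B] [T2Space B] [NormedAddCommGroup E] [NormedSpace ℂ E]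
  [FiniteDimensional ℂ E] {k : ℕ}

theorem coe_un {s : OnePoint E} (h : s ≠ ∞) : ((un s : E) : OnePoint E) = s := by
  induction s using OnePoint.rec
  exacts [absurd rfl h, rfl]

variable (k) in
/-- the slotwise family -/
def N0 (a : PT B E) : PM B k E :=
  ⟨{w | ∀ i, a.f (w.1, (w.2 i : E)) ≠ ∞}, fun w i => un (a.f (w.1, (w.2 i : E))), fun _ => 1⟩

theorem N0_ok (a : PT B E) : (N0 k a).Ok := by
  have := FiniteDimensional.proper_rclike ℂ E
  have c : ∀ i, Continuous fun w : B × V k E => a.f (w.1, (w.2 i : E)) := fun i =>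
    a.ct.comp (continuous_fst.prodMk (continuous_coe.comp (by fun_prop)))
  have ct : ContinuousOn (N0 k a).P (N0 k a).O := continuousOn_pi.2 fun i =>
    isOpenEmbedding_coe.isInducing.continuousOn_iff.2
      ((c i).continuousOn.congr fun w h => coe_un (h i))
  refine ⟨?_, fun w h i => h _, ct, fun _ _ => rfl, fun K hK R => ?_, continuous_const,
    fun _ _ => rfl, fun _ _ e => e⟩
  · simp only [N0, ofPred_forall]
    exact isOpen_iInter_of_finite fun i => isOpen_ne_fun (c i) continuous_const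
  · have s : IsCompact (Prod.map id (↑) ⁻¹' (K ×ˢ univ ∩ a.f ⁻¹' ((↑) '' closedBall (0 : E) R)) :
        Set (B × E)) := by
      refine (Topology.IsInducing.id.prodMap isOpenEmbedding_coe.isInducing).isCompact_preimage'
        ((hK.prod isCompact_univ).inter_right
          (((isCompact_closedBall _ _).image continuous_coe).isClosed.preimage a.ct)) ?_
      rintro ⟨b, s⟩ ⟨-, y, -, e⟩
      induction s using OnePoint.rec with
      | infty => exact absurd (e.trans (a.pt b)) (coe_ne_infty _)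
      | coe s => exact ⟨(b, s), rfl⟩
    obtain ⟨R', hR⟩ := s.exists_bound_of_continuousOn continuous_snd.continuousOn
    refine pp_of ct (C := K ×ˢ closedBall 0 (max R' 0) ∩ ⋂ i, (fun w => (w.1, w.2 i)) ⁻¹' _)
      ((hK.prod (isCompact_closedBall _ _)).inter_right
        (isClosed_iInter fun i => s.isClosed.preimage (by fun_prop))) (fun w h i e => ?_) hK
      fun w h m b => ?_
    · obtain ⟨-, y, -, z⟩ := mem_iInter.1 h.2 i
      exact coe_ne_infty _ (z.trans e)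
    · have z : ∀ i, (w.1, w.2 i) ∈ (Prod.map id (↑) ⁻¹' (K ×ˢ univ ∩
          a.f ⁻¹' ((↑) '' closedBall (0 : E) R)) : Set (B × E)) := fun i => ⟨⟨m, trivial⟩, _,
        mem_closedBall_zero_iff.2 ((norm_le_pi_norm _ i).trans b), coe_un (h i)⟩
      exact ⟨⟨m, mem_closedBall_zero_iff.2 ((pi_norm_le_iff_of_nonneg (le_max_right _ _)).2
        fun i => (hR _ (z i)).trans (le_max_left _ _))⟩, mem_iInter.2 z⟩

/-- the circle action is a family of frames -/
theorem gi_g {r : B → ℝ} (h : Continuous r) :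
    Gi (k := k) (E := E) fun b => (Fo.g (r b)).restrictScalars ℝ :=
  ⟨continuous_clm_apply.2 fun y => Fo.cont_g h continuous_const, fun _ y => g_sh' _ y,
    fun b y e => by rw [← Fo.g_neg (r b) y]; exact (congrArg _ e).trans (map_zero _)⟩

theorem g_rep (r : ℝ) (y : V k E) (i : Ix k) :
    Fo.g (-rep (r : UnitAddCircle)) y i = Fo.g (-r) y (i + ((⌊r⌋ : ℤ) : Ix k)) := by
  rw [rep_coe, show -(r + ((-⌊r⌋ : ℤ) : ℝ)) = ((⌊r⌋ : ℤ) : ℝ) + -r by push_cast; ring, Fo.g_add,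
    g_int]; rfl

variable (k) in
/-- the orbit loop of a pointed family -/
def QN (a : PT B E) : PM (B × UnitAddCircle) k E :=
  ⟨{w | ∀ i, a.f (w.1.1, (Fo.g (-rep w.1.2) w.2 i : E)) ≠ ∞},
    fun w => Fo.g (rep w.1.2) fun i => un (a.f (w.1.1, (Fo.g (-rep w.1.2) w.2 i : E))), fun _ => 1⟩

theorem QN_ok (a : PT B E) : (QN k a).Ok := by
  refine desc (φ := Prod.map id (↑))
    (IsOpenQuotientMap.id.prodMap QuotientAddGroup.isOpenQuotientMap_mk)
    (fun K hK => ⟨(Prod.fst '' K) ×ˢ Icc 0 1, (hK.image continuous_fst).prod isCompact_Icc,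
      fun b hb => ⟨(b.1, rep b.2), ⟨⟨_, hb, rfl⟩, rep_mem _⟩, by simp [coe_rep]⟩⟩)
    (((N0_ok a).pull continuous_fst).cf (gi_g continuous_snd.neg) (gi_g continuous_snd)) ?_ ?_
    fun b => ContinuousLinearMap.ext fun y => (Fo.g_neg' _ y).symm
  · rintro ⟨x, r⟩ y
    change (∀ i, a.f (x, (Fo.g (-rep (r : UnitAddCircle)) y i : E)) ≠ ∞) ↔
      ∀ i, a.f (x, (Fo.g (-r) y i : E)) ≠ ∞
    simp only [g_rep]
    exact ⟨fun a i => by simpa using a (i - ((⌊r⌋ : ℤ) : Ix k)), fun a i => a _⟩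
  · rintro ⟨x, r⟩ y -
    change Fo.g (rep (r : UnitAddCircle)) (fun i =>
      un (a.f (x, (Fo.g (-rep (r : UnitAddCircle)) y i : E)))) = Fo.g r _
    simp only [g_rep]
    rw [rep_coe, Fo.g_add, g_int]
    congr 1
    funext i
    simp [Fo.sh, N0, PM.pull]

theorem g_mn (r : ℝ) (y : V k E) : Pm.mn (Fo.g r y) = Fo.g r (Pm.mn y) :=
  (gi_g (B := ℝ) continuous_id).mn r y

/-- the transported normalising function -/
theorem tau_g {δ : ℝ} (hδ : 0 < δ) : ∃ δ', Tau δ' fun w : (B × UnitAddCircle) × V k E =>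
    tau δ ((), Fo.g (-rep w.1.2) w.2) := by
  have G := gi_g (k := k) (E := E) (B := ℝ) continuous_neg
  obtain ⟨C, C0, lo⟩ := G.lo (isCompact_Icc (a := 0) (b := 1))
  obtain ⟨C', C1, hi⟩ := G.hi (isCompact_Icc (a := 0) (b := 1))
  have t := tau_ok (B := Unit) (k := k) (E := E) hδ
  obtain ⟨d, d0, z⟩ := t.z univ isCompact_univ
  refine ⟨C * δ, ?_, fun w => ?_, fun w => t.mem _, fun _ _ => ⟨d / C', by positivity,
    fun w _ l => z _ trivial ?_⟩, fun w l => t.o _ ?_⟩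
  · refine (((IsOpenQuotientMap.id.prodMap QuotientAddGroup.isOpenQuotientMap_mk).prodMap
      (IsOpenQuotientMap.id (X := V k E))).continuous_comp_iff).1 ?_
    refine (t.ct.comp (f := fun w : (B × ℝ) × V k E => ((), Fo.g (-w.1.2) w.2))
      (by fun_prop)).congr fun w => ?_
    have e : Fo.g (-rep (w.1.2 : UnitAddCircle)) (Pm.mn w.2) =
        Fo.g (-w.1.2) (Pm.mn w.2) ∘ Equiv.addRight ((⌊w.1.2⌋ : ℤ) : Ix k) :=
      funext fun i => g_rep _ _ i
    change tau δ ((), Fo.g (-w.1.2) w.2) = tau δ ((), Fo.g (-rep (w.1.2 : UnitAddCircle)) w.2)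
    simp only [tau, g_mn, e, (Equiv.addRight _).surjective.pi_norm_comp]
  · simp only [g_sh']; exact t.inv ((), _)
  · rw [g_mn]; exact (hi _ (rep_mem _) _).trans_lt ((lt_div_iff₀' C1).1 l)
  · rw [g_mn]; exact le_of_mul_le_mul_left (l.trans (lo _ (rep_mem _) _)) C0

theorem mn_eq' (y : V k E) : D7.mn (· + ((2 ^ k : ℕ) : Ix k)) y = Pm.mn y := by
  funext i; simp [D7.mn, Pm.mn]

/-- honest families -/
theorem eqv_ol [CompactSpace B] {a : PT B E} {v : B × E → E} (h : ∀ x (y : E), a.f (x, y) = v (x, y))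
    {δ : ℝ} (hδ : 0 < δ) : ((QN k a).F (tau δ)).Eqv (OL k v δ) := by
  obtain ⟨δ', t⟩ := tau_g (B := B) (k := k) (E := E) hδ
  refine (PM.eqv_tau (QN_ok a) ((tau_ok hδ).mono (le_max_left _ δ')) (t.mono (le_max_right δ _))
    (PM.cs_cpt _ _)).trans ((PM.fok (QN_ok a) t (PM.cs_cpt _ _)).eqv_sm
      ⟨Set.ext fun w => and_iff_left fun i => by rw [h]; exact coe_ne_infty _, fun w _ => ?_⟩)
  have s : ∀ (r t : ℝ) (y : V k E), Fo.g r (t • y) = t • Fo.g r y := fun r t y =>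
    ((Fo.g r).restrictScalars ℝ).map_smul t y
  simp only [PM.F, QN, OL, h, map_sub, s, ← g_mn]
  rw [one_apply_eq_self, ← Fo.g_neg' (rep w.1.2) (Pm.mn w.2), ← s, ← map_add, ← g_mn]
  congr 1
  funext i
  simp only [nz, mn_eq']; rfl

end Nft

open Nft in
theorem nft : NFT := by
  intro A _ T E₁ E₂ _ _ _ _ _ _ k δ hk hd a p nt ha
  obtain ⟨v, H, a1, a2, a3, a4, a5, a6, a7, -⟩ := Nf.nf (E' := E₂) a.ct a.pt
    (A := {x : Sx | -1 / 2 ≤ ⟪x.1, p.1⟫_ℝ}) (fun x h s => ha x s h) (a := 4 * δ) (by positivity)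
  refine ⟨v, ⟨a1, fun x y h => a2 x y (.inl h), fun x y h => a2 x y (.inr h), a3⟩, ?_⟩
  let G : PT (Sx × I) (E₁ × E₂) :=
    ⟨fun z => H (z.1.2, z.1.1, z.2), a4.comp (by fun_prop), fun z => a5 _ _⟩
  have o := (QN_ok (k := k) G).pull
    (φ := fun b : (Sx × UnitAddCircle) × I => ((b.1.1, b.2), b.1.2)) (by fun_prop)
  have g : ∀ (r : ℝ) (w : V k (E₁ × E₂)) i, Fo.g r w i = (Fo.g r (s1 w) i, Fo.g r (s2 w) i) :=
    fun r w i => Prod.ext (g_N r (.fst ℂ E₁ E₂) w i) (g_N r (.snd ℂ E₁ E₂) w i)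
  have e : ∀ b, (QN k (G.pull (fun x => (x, 0)) (by fun_prop))).Ag b (PL k a PT.one) b := by
    refine fun b => ⟨fun w => ⟨?_, fun m => ?_⟩, rfl⟩
    · simp only [QN, PL, PT.pull, G, mem_ofPred_eq, g, a6, PT.one, ne_eq, coe_ne_infty,
        not_false_eq_true, implies_true, and_true]
      refine forall_congr' fun i => not_congr ?_
      generalize a.f _ = s
      induction s using OnePoint.rec <;> simp
    · simp only [QN, PT.pull, G, mem_ofPred_eq, g, a6] at m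
      funext i
      simp only [QN, PL, PT.pull, G, PT.one, g, a6]
      have u : ∀ j, un ((a.f (b.1, (Fo.g (-rep b.2) (s1 w) j : E₁))).map
          fun w' => (w', Fo.g (-rep b.2) (s2 w) j)) =
          (un (a.f (b.1, (Fo.g (-rep b.2) (s1 w) j : E₁))), Fo.g (-rep b.2) (s2 w) j) := fun j => by
        have := m j
        generalize a.f _ = s at this ⊢
        induction s using OnePoint.rec
        exacts [absurd rfl this, rfl]
      simp only [u]
      exact Prod.ext rfl (congrFun (Fo.g_neg' (rep b.2) (s2 w)) i)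
  exact ((T.an_eqv k (sp (E₁ × E₂)) _ _ hk ((PM.fok (QN_ok _) (tau_ok hd)
    (PM.cs_cpt _ _)).eqv_sm (PM.F_sm e _))).symm.trans (T.an_ht (S := sp (E₁ × E₂)) hk hd o)).trans
    (T.an_eqv k (sp (E₁ × E₂)) _ _ hk
      (eqv_ol (a := G.pull (fun x => (x, 1)) (by fun_prop)) a7 hd))

end Crest.Agent.N218.D7

end
end

-- ▼ part N218/In/Chart
section

/-!
# Row 218, block INST (helper29): independence of the embedding
-/

set_option autoImplicit false
set_option linter.unusedVariables false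
set_option linter.unusedSectionVars false

open Set Topology Module unitInterval

noncomputable section

namespace Crest.Agent.N218.In.Ch

open K Pm

theorem gq {k : ℕ} (hk : 16 ≤ k) : Gq (ck k) :=
  ⟨Fo.inc_inj _, k + 1, by omega, by simp [ZMod.card]⟩

section
variable {k : ℕ} {E : Type} [NormedAddCommGroup E] [NormedSpace ℝ E] [FiniteDimensional ℝ E]

theorem rho_succ (n : ℕ) (y : V k E) : (Rr k E).ρ (.ofAdd (-((n + 1 : ℕ) : Ix k))) y =
    sh k E ((Rr k E).ρ (.ofAdd (-(n : Ix k))) y) := funext fun i => by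
  change y (i + -((n + 1 : ℕ) : Ix k)) = y (i - 1 + -(n : Ix k))
  congr 1; push_cast; ring

theorem rho_ind {p : (V k E → V k E) → Prop} (h0 : p id) (h1 : ∀ f, p f → p (sh k E ∘ f))
    (g : Gk k) : p ((Rr k E).ρ g) := by
  obtain ⟨n, hn⟩ := ZMod.natCast_zmod_surjective (-g.toAdd)
  obtain rfl : g = .ofAdd (-(n : Ix k)) := by rw [hn, neg_neg]; rfl
  clear hn
  induction n with
  | zero =>
    have : (⇑((Rr k E).ρ (.ofAdd (-((0 : ℕ) : Ix k)))) : V k E → V k E) = id :=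
      funext fun y => funext fun i => by change y (i + -((0 : ℕ) : Ix k)) = y i; simp
    exact this ▸ h0
  | succ n ih => exact (funext (rho_succ (k := k) (E := E) n) :) ▸ h1 _ ih

theorem free {y : V k E} (h : mn y ≠ 0) {g : Gk k} (e : (Rr k E).ρ g y = y) : g = 1 := by
  by_contra hg
  have a : ∀ n : ℕ, ∀ i, y (i + n * g.toAdd) = y i := fun n => by
    induction n with
    | zero => simp
    | succ n ih =>
      intro i
      rw [← ih i, ← congrFun e (i + n * g.toAdd), Rr_apply]; congr 1; push_cast; ring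
  obtain ⟨n, hn⟩ : ∃ n : ℕ, (n : Ix k) * g.toAdd = 2 ^ k := by
    have h0 : g.toAdd.val ≠ 0 := fun h => hg (Multiplicative.toAdd.injective
      ((ZMod.val_eq_zero _).1 h))
    obtain ⟨j, m, hm, e⟩ := Nat.exists_eq_two_pow_mul_odd h0
    have jk : j ≤ k := by
      have := g.toAdd.val_lt
      rw [e] at this
      have := (Nat.le_mul_of_pos_right (2 ^ j) hm.pos).trans_lt this
      exact Nat.lt_succ_iff.1 ((Nat.pow_lt_pow_iff_right one_lt_two).1 this)
    obtain ⟨c, rfl⟩ := hm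
    obtain ⟨d, rfl⟩ := Nat.exists_eq_add_of_le jk
    refine ⟨2 ^ d, ?_⟩
    have z : ((2 ^ (j + d + 1) : ℕ) : Ix (j + d)) = 0 := ZMod.natCast_self _
    rw [← ZMod.natCast_zmod_val g.toAdd, e]
    push_cast at z ⊢
    linear_combination c * z
  exact h (funext fun i => by simp [mn, ← hn, a])

variable {Y : Type} [TopologicalSpace Y] {P : Pb Y k E}

theorem ok_act (h : P.Ok) (g : Gk k) : ∀ x ∈ P.O, (x.1, (Rr k E).ρ g x.2) ∈ P.O ∧
    P.h (x.1, (Rr k E).ρ g x.2) = (Rr k E).ρ g (P.h x) :=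
  rho_ind (p := fun f => ∀ x ∈ P.O, (x.1, f x.2) ∈ P.O ∧ P.h (x.1, f x.2) = f (P.h x))
    (fun x hx => ⟨hx, rfl⟩) (fun f hf x hx => ⟨h.inv _ (hf x hx).1,
      (h.eq _ (hf x hx).1).trans (congrArg (sh k E) (hf x hx).2)⟩) g

theorem ok_pull {Y' : Type} [TopologicalSpace Y'] {φ : Y' → Y} (hφ : IsInducing φ) (h : P.Ok)
    (z : ∀ x ∈ P.Z, x.1 ∈ range φ) : (P.pull φ).Ok :=
  have c : IsInducing (Prod.map φ (id : V k E → _)) := hφ.prodMap IsInducing.id
  ⟨h.op.preimage c.continuous, fun x hx => h.inv _ hx,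
    h.ct.comp c.continuous.continuousOn fun x hx => hx, fun x hx => h.eq _ hx,
    c.isCompact_preimage' h.cp fun x hx => let ⟨y, hy⟩ := z x hx; ⟨(y, x.2), Prod.ext hy rfl⟩,
    fun x hx => h.fr (φ x.1, x.2) hx⟩

/-- topological part: `B` is any space -/
theorem top {B C : Type} [TopologicalSpace B] [TopologicalSpace C] [Zero C] [T2Space Y]
    (e : Emb Y B C) (h : P.Ok) : IsOpen {z : B × V k E | z.1 ∈ e.Ω ∧ (e.π z.1, z.2) ∈ P.O} ∧
    ContinuousOn (fun z : B × V k E => (e.n z.1, P.h (e.π z.1, z.2)))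
      {z | z.1 ∈ e.Ω ∧ (e.π z.1, z.2) ∈ P.O} ∧
    IsCompact {z : B × V k E | (z.1 ∈ e.Ω ∧ (e.π z.1, z.2) ∈ P.O) ∧
      (e.n z.1, P.h (e.π z.1, z.2)) = 0} := by
  have c : ContinuousOn (fun z : B × V k E => (e.π z.1, z.2)) (Prod.fst ⁻¹' e.Ω) :=
    (e.cπ.comp continuousOn_fst fun _ h => h).prodMk continuousOn_snd
  refine ⟨c.isOpen_inter_preimage (e.op.preimage continuous_fst) h.op,
    (e.cn.comp continuousOn_fst fun _ h => h.1).prodMk
      (h.ct.comp (c.mono fun _ h => h.1) fun _ h => h.2), ?_⟩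
  have k1 := (e.cp _ (h.cp.image continuous_fst)).prod (h.cp.image continuous_snd)
  rw [isCompact_iff_compactSpace] at k1
  have := ((h.cp.isClosed.preimage (continuousOn_iff_continuous_domRestrict.1
    (c.mono (t := {p | p ∈ e.Ω ∧ e.n p = 0 ∧ e.π p ∈ Prod.fst '' P.Z} ×ˢ
      (Prod.snd '' P.Z)) fun _ h => h.1.1))).isCompact).image continuous_subtype_val
  convert this using 1
  ext z
  constructor
  · rintro ⟨⟨a, b⟩, d⟩
    have m : (e.π z.1, z.2) ∈ P.Z := ⟨b, congrArg Prod.snd d⟩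
    exact ⟨⟨z, ⟨a, congrArg Prod.fst d, _, m, rfl⟩, _, m, rfl⟩, m, rfl⟩
  · rintro ⟨⟨z, a, a'⟩, b, rfl⟩
    exact ⟨⟨a.1, b.1⟩, Prod.ext a.2.1 b.2⟩
end

variable {Y Y' Y'' B B' B'' C C' C'' : Type} [TopologicalSpace Y] [T2Space Y]
  [TopologicalSpace Y'] [T2Space Y'] [TopologicalSpace Y''] [T2Space Y'']
  [NormedAddCommGroup B] [NormedSpace ℝ B] [FiniteDimensional ℝ B]
  [NormedAddCommGroup B'] [NormedSpace ℝ B'] [FiniteDimensional ℝ B']
  [NormedAddCommGroup B''] [NormedSpace ℝ B''] [FiniteDimensional ℝ B'']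
  [NormedAddCommGroup C] [NormedSpace ℝ C] [FiniteDimensional ℝ C]
  [NormedAddCommGroup C'] [NormedSpace ℝ C'] [FiniteDimensional ℝ C']
  [NormedAddCommGroup C''] [NormedSpace ℝ C''] [FiniteDimensional ℝ C'']

section
variable {k : ℕ} {E : Type} [NormedAddCommGroup E] [NormedSpace ℝ E] [FiniteDimensional ℝ E]

theorem adm {m : ℕ} (h : finrank ℝ B = m + finrank ℝ C) : Adm m (XX B k E) (XX C k E) :=
  have a : B ≃L[ℝ] (Fin m → ℝ) × C := ContinuousLinearEquiv.ofFinrankEq (by simp [h])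
  ⟨⟨(a.prodCongr (.refl ℝ (V k E))).trans (.prodAssoc ℝ _ _ _), fun g x => rfl⟩⟩

theorem pb_fr (e : Emb Y B C) {P : Pb Y k E} (h : P.Ok) : (e.pb P).Fr :=
  have t := top e h
  ⟨t.1, fun g x hx => ⟨hx.1, (ok_act h g _ hx.2).1⟩, t.2.1,
    fun g x hx => Prod.ext rfl (ok_act h g _ hx.2).2, t.2.2,
    fun x hx g e => free (h.fr _ hx.1.2) (congrArg Prod.snd e)⟩

/-- **a homotopy of embeddings**, from a part of `e₀` to `e₁` -/
theorem pb_bd (H : Emb Y' (B × I) C) (e₀ : Emb Y B C) (e₁ : Emb Y' B C) {φ : Y' → Y}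
    (hφ : IsInducing φ)
    (a₀ : ∀ p, (p, 0) ∈ H.Ω → p ∈ e₀.Ω ∧ φ (H.π (p, 0)) = e₀.π p ∧ H.n (p, 0) = e₀.n p)
    (z₀ : ∀ p ∈ e₀.Ω, e₀.n p = 0 → e₀.π p ∈ range φ → (p, 0) ∈ H.Ω)
    (a₁ : ∀ p, (p, 1) ∈ H.Ω → p ∈ e₁.Ω ∧ H.π (p, 1) = e₁.π p ∧ H.n (p, 1) = e₁.n p)
    (z₁ : ∀ p ∈ e₁.Ω, e₁.n p = 0 → (p, 1) ∈ H.Ω) {P : Pb Y k E} (h : P.Ok)
    (z : ∀ x ∈ P.Z, x.1 ∈ range φ) : (e₀.pb P).Bd (e₁.pb (P.pull φ)) := by
  have h' := ok_pull hφ h z
  have t := top H h'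
  let r : (B × V k E) × I ≃ₜ (B × I) × V k E :=
    { toFun := fun x => ((x.1.1, x.2), x.1.2)
      invFun := fun x => ((x.1.1, x.2), x.1.2)
      left_inv := fun _ => rfl
      right_inv := fun _ => rfl }
  refine ⟨pb_fr e₀ h, pb_fr e₁ h', ⟨r ⁻¹' {z | z.1 ∈ H.Ω ∧ (H.π z.1, z.2) ∈ (P.pull φ).O},
    fun x => (H.n (r x).1, (P.pull φ).h (H.π (r x).1, (r x).2))⟩,
    ⟨t.1.preimage r.continuous, fun g x hx => ⟨hx.1, (ok_act h' g _ hx.2).1⟩,
      t.2.1.comp r.continuous.continuousOn fun _ h => h,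
      fun g x hx => Prod.ext rfl (ok_act h' g _ hx.2).2, r.isCompact_preimage.2 t.2.2,
      fun x hx g e => free (h'.fr _ hx.1.2) (congrArg Prod.snd e)⟩,
    ⟨fun x hx => ⟨(a₀ _ hx.1).1, (a₀ _ hx.1).2.1 ▸ hx.2⟩, fun x hx => ?_, fun x hx => ?_⟩,
    ⟨fun x hx => ⟨(a₁ _ hx.1).1, (a₁ _ hx.1).2.1 ▸ hx.2⟩, fun x hx => ?_, fun x hx => ?_⟩⟩
  · exact Prod.ext (a₀ _ hx.1).2.2 (congrArg (fun b => P.h (b, x.2)) (a₀ _ hx.1).2.1)
  · have := z₀ _ hx.1.1 (congrArg Prod.fst hx.2) (z _ ⟨hx.1.2, congrArg Prod.snd hx.2⟩)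
    exact ⟨this, show (φ (H.π (x.1, 0)), x.2) ∈ P.O from (a₀ _ this).2.1 ▸ hx.1.2⟩
  · exact Prod.ext (a₁ _ hx.1).2.2 (congrArg (fun b => P.h (φ b, x.2)) (a₁ _ hx.1).2.1)
  · have := z₁ _ hx.1.1 (congrArg Prod.fst hx.2)
    exact ⟨this, show (φ (H.π (x.1, 1)), x.2) ∈ P.O from (a₁ _ this).2.1 ▸ hx.1.2⟩
end

/-- `e` and `e'` give the same invariants (up to one sign) of problems over the range of `φ` -/
structure Sim (φ : Y' → Y) (e' : Emb Y' B' C') (e : Emb Y B C) : Prop where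
  ind : IsInducing φ
  dim : finrank ℝ B' + finrank ℝ C = finrank ℝ B + finrank ℝ C'
  eq : ∀ {m : ℕ} (J : AI m), finrank ℝ B = m + finrank ℝ C → ∀ k, 16 ≤ k → ∀ S : Pm.Sp,
    ∃ s : ℤˣ, ∀ P : Pb Y k S.E, P.Ok → (∀ x ∈ P.Z, x.1 ∈ range φ) →
      e.inv J k S P = s • e'.inv J k S (P.pull φ)

theorem Sim.trans {φ : Y' → Y} {ψ : Y'' → Y'} {e'' : Emb Y'' B'' C''} {e' : Emb Y' B' C'}
    {e : Emb Y B C} (h' : Sim ψ e'' e') (h : Sim φ e' e) : Sim (φ ∘ ψ) e'' e := by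
  refine ⟨h.ind.comp h'.ind, by have := h.dim; have := h'.dim; omega, fun J d k hk S => ?_⟩
  obtain ⟨s, hs⟩ := h.eq J d k hk S
  obtain ⟨s', hs'⟩ := h'.eq J (by have := h.dim; omega) k hk S
  refine ⟨s * s', fun P o z => ?_⟩
  have z' : ∀ x ∈ P.Z, x.1 ∈ range φ := fun x hx => range_comp_subset_range _ _ (z x hx)
  rw [hs P o z', hs' _ (ok_pull h.ind o z'), mul_smul]
  · rfl
  · intro x hx
    obtain ⟨y, hy⟩ := z (φ x.1, x.2) hx
    exact ⟨y, h.ind.injective hy⟩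

theorem Sim.symm {e' : Emb Y B' C'} {e : Emb Y B C} (h : Sim id e' e) : Sim id e e' := by
  refine ⟨h.ind, by have := h.dim; omega, fun J d k hk S => ?_⟩
  obtain ⟨s, hs⟩ := h.eq J (by have := h.dim; omega) k hk S
  exact ⟨s⁻¹, fun P o z => by rw [eq_inv_smul_iff]; exact (hs P o z).symm⟩

theorem Sim.pe {φ : Y' → Y} {e' : Emb Y' B' C'} {e : Emb Y B C} (h : Sim φ e' e) {m : ℕ}
    (J : AI m) (d : finrank ℝ B = m + finrank ℝ C) {k : ℕ} (hk : 16 ≤ k) (S : Pm.Sp)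
    {P : Pb Y k S.E} (o : P.Ok) (z : ∀ x ∈ P.Z, x.1 ∈ range φ) :
    Pe (e.inv J k S P) (e'.inv J k S (P.pull φ)) := by
  obtain ⟨s, hs⟩ := h.eq J d k hk S
  rcases Int.units_eq_one_or s with rfl | rfl <;> simp [Pe, hs P o z]

/-- homotopies of embeddings -/
theorem sim_ht (H : Emb Y' (B × I) C) (e₀ : Emb Y B C) (e₁ : Emb Y' B C) {φ : Y' → Y}
    (hφ : IsInducing φ)
    (a₀ : ∀ p, (p, 0) ∈ H.Ω → p ∈ e₀.Ω ∧ φ (H.π (p, 0)) = e₀.π p ∧ H.n (p, 0) = e₀.n p)
    (z₀ : ∀ p ∈ e₀.Ω, e₀.n p = 0 → e₀.π p ∈ range φ → (p, 0) ∈ H.Ω)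
    (a₁ : ∀ p, (p, 1) ∈ H.Ω → p ∈ e₁.Ω ∧ H.π (p, 1) = e₁.π p ∧ H.n (p, 1) = e₁.n p)
    (z₁ : ∀ p ∈ e₁.Ω, e₁.n p = 0 → (p, 1) ∈ H.Ω) : Sim φ e₁ e₀ :=
  ⟨hφ, rfl, fun J d k hk S => ⟨1, fun P o z =>
    (J.bd _ _ _ (gq hk) (adm d) _ _ (pb_bd H e₀ e₁ hφ a₀ z₀ a₁ z₁ o z)).trans (one_smul _ _).symm⟩⟩

/-- parts of the base, smaller domains -/
theorem sim_opn (e₁ : Emb Y' B C) (e₀ : Emb Y B C) {φ : Y' → Y} (hφ : IsInducing φ)
    (a : ∀ p ∈ e₁.Ω, p ∈ e₀.Ω ∧ φ (e₁.π p) = e₀.π p ∧ e₁.n p = e₀.n p)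
    (z : ∀ p ∈ e₀.Ω, e₀.n p = 0 → e₀.π p ∈ range φ → p ∈ e₁.Ω) : Sim φ e₁ e₀ :=
  sim_ht ⟨Prod.fst ⁻¹' e₁.Ω, fun p => e₁.π p.1, fun p => e₁.n p.1, e₁.op.preimage continuous_fst,
    e₁.cπ.comp continuousOn_fst fun _ h => h, e₁.cn.comp continuousOn_fst fun _ h => h,
    fun K hK => by
      convert (e₁.cp K hK).prod (isCompact_univ (X := I)) using 1
      ext p; exact ⟨fun h => ⟨h, trivial⟩, fun h => h.1⟩⟩ e₀ e₁ hφ a z (fun p h => ⟨h, rfl, rfl⟩) fun p h _ => h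

/-- transport of an embedding -/
def cm (e' : Emb Y B' C') (A : B ≃ₜ B') (L : C' ≃L[ℝ] C) : Emb Y B C :=
  ⟨A ⁻¹' e'.Ω, fun p => e'.π (A p), fun p => L (e'.n (A p)),
    e'.op.preimage A.continuous, e'.cπ.comp A.continuous.continuousOn fun _ h => h,
    L.continuous.comp_continuousOn (e'.cn.comp A.continuous.continuousOn fun _ h => h),
    fun K hK => by
      convert A.isCompact_preimage.2 (e'.cp K hK) using 1
      ext p; exact and_congr_right fun _ => and_congr_left fun _ => L.map_eq_zero_iff⟩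

/-- homeomorphisms of the ambient space, linear changes of the equations -/
theorem sim_iso (e' : Emb Y B' C') (e : Emb Y B C) (A : B ≃ₜ B') (L : C' ≃L[ℝ] C)
    (d : finrank ℝ B' = finrank ℝ B) (hΩ : ∀ p, p ∈ e.Ω ↔ A p ∈ e'.Ω)
    (hπ : ∀ p ∈ e.Ω, e.π p = e'.π (A p)) (hn : ∀ p ∈ e.Ω, e.n p = L (e'.n (A p))) :
    Sim id e' e := by
  have l := L.toLinearEquiv.finrank_eq
  refine Sim.trans (e' := cm e' A L) (φ := id) (ψ := id) ⟨.id, by omega, fun J d' k hk S => ?_⟩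
    (sim_opn _ e .id (fun p h => have h' := (hΩ p).2 h; ⟨h', (hπ p h').symm, (hn p h').symm⟩)
      fun p h _ _ => (hΩ p).1 h)
  obtain ⟨s, hs⟩ := J.iso (ck k) (XX B' k S.E) (XX C' k S.E) (XX B k S.E) (XX C k S.E) (gq hk)
    (adm (by omega)) (adm d') ⟨A.prodCongr (.refl _), fun g x => rfl⟩
    ⟨L.prodCongr (.refl ℝ _), fun g x => rfl⟩
  exact ⟨s, fun P o _ => hs _ (pb_fr e' o)⟩


end Crest.Agent.N218.In.Ch

end
end

-- ▼ part N218/In/Stereo

/-!
# Row 218, block INST (helper29): the stereographic chart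
-/

set_option autoImplicit false
set_option linter.unusedVariables false
set_option linter.unusedSectionVars false

open Set Topology Module unitInterval

noncomputable section

namespace Crest.Agent.N218.In.Ch

open K Pm

section sph
open scoped InnerProductSpace
variable {F E Y₂ B₂ C₂ : Type} [NormedAddCommGroup F] [InnerProductSpace ℝ F]
  [FiniteDimensional ℝ F] [NormedAddCommGroup E] [InnerProductSpace ℝ E] [FiniteDimensional ℝ E]
  [TopologicalSpace Y₂] [T2Space Y₂] [NormedAddCommGroup B₂] [NormedSpace ℝ B₂]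
  [FiniteDimensional ℝ B₂] [NormedAddCommGroup C₂] [NormedSpace ℝ C₂] [FiniteDimensional ℝ C₂]

/-- `‖t x - (t r + 1) v‖` -/
def rh (x : F) (r t : ℝ) : ℝ := √(t ^ 2 * ‖x‖ ^ 2 + (t * r + 1) ^ 2)
/-- the equation of the sphere of curvature `t` -/
def mm (x : F) (r t : ℝ) : ℝ := r + t * (‖x‖ ^ 2 + r ^ 2) / 2

theorem rh_sq (x : F) (r t : ℝ) : rh x r t ^ 2 = 1 + 2 * t * mm x r t := by
  rw [rh, Real.sq_sqrt (by positivity), mm]; ring

theorem rh_pos {x : F} {r t : ℝ} (h : 0 < rh x r t + (t * r + 1)) : 0 < rh x r t := by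
  refine (Real.sqrt_nonneg _).lt_of_ne fun e => ?_
  have := rh_sq x r t
  rw [rh, ← e] at h this
  rw [mm] at this
  nlinarith [sq_nonneg (t * ‖x‖)]

theorem rh_one {x : F} {r t : ℝ} (h : mm x r t = 0) : rh x r t = 1 := by
  have := rh_sq x r t
  rw [h, mul_zero, add_zero] at this
  exact (pow_eq_one_iff_of_nonneg (Real.sqrt_nonneg _) two_ne_zero).1 this

theorem nz_iff {x : F} {r t : ℝ} (h : 0 < rh x r t) (h0 : 0 ≤ t) (h1 : t ≤ 1) :
    t * Real.log (rh x r t) + (1 - t) * mm x r t = 0 ↔ mm x r t = 0 := by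
  refine ⟨fun e => ?_, fun e => by simp [rh_one e, e]⟩
  have s := rh_sq x r t
  rcases h0.eq_or_lt with rfl | h0
  · simpa using e
  rcases lt_trichotomy (mm x r t) 0 with k | k | k
  · have : rh x r t < 1 := by nlinarith [mul_pos h0 (neg_pos.2 k)]
    nlinarith [mul_pos h0 (neg_pos.2 (Real.log_neg h this)), mul_nonneg (sub_nonneg.2 h1) (neg_pos.2 k).le]
  · exact k
  · have : 1 < rh x r t := by nlinarith [mul_pos h0 k]
    nlinarith [mul_pos h0 (Real.log_pos this), mul_nonneg (sub_nonneg.2 h1) k.le]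

/-- the point over `y` -/
def pt (y : F) (t : ℝ) : F × ℝ :=
  ((1 + t ^ 2 * ‖y‖ ^ 2 / 4)⁻¹ • y, -(t / 2) * (1 + t ^ 2 * ‖y‖ ^ 2 / 4)⁻¹ * ‖y‖ ^ 2)

theorem pt_spec (y : F) (t : ℝ) : mm (pt y t).1 (pt y t).2 t = 0 ∧
    1 + (t * (pt y t).2 + 1) = 2 * (1 + t ^ 2 * ‖y‖ ^ 2 / 4)⁻¹ := by
  have : 0 < 1 + t ^ 2 * ‖y‖ ^ 2 / 4 := by positivity
  simp only [mm, pt, norm_smul, mul_pow, Real.norm_eq_abs, sq_abs]
  constructor <;> field_simp <;> ring

theorem eq_pt {x : F} {r t : ℝ} (h : 0 < 1 + (t * r + 1)) (e : mm x r t = 0) :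
    (x, r) = pt ((2 / (1 + (t * r + 1))) • x) t := by
  rw [mm] at e
  obtain ⟨b, hb⟩ : ∃ b, b = 1 + (t * r + 1) := ⟨_, rfl⟩
  rw [← hb] at h ⊢
  have n : ‖(2 / b) • x‖ ^ 2 = 4 * ‖x‖ ^ 2 / b ^ 2 := by
    rw [norm_smul, mul_pow, Real.norm_eq_abs, sq_abs]; ring
  have a : (1 + t ^ 2 * ‖(2 / b) • x‖ ^ 2 / 4)⁻¹ = b / 2 := by
    rw [inv_eq_iff_eq_inv, n]
    field_simp
    subst hb; linear_combination 2 * t * e
  rw [pt, a, smul_smul, n]
  congr 1
  · rw [show b / 2 * (2 / b) = 1 by field_simp, one_smul]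
  · field_simp
    subst hb; linear_combination 8 * e

variable (F) in
/-- the flat embedding `F = F × 0` -/
def fl : Emb F (F × ℝ) ℝ :=
  ⟨univ, Prod.fst, Prod.snd, isOpen_univ, continuousOn_fst, continuousOn_snd, fun K hK => by
    convert hK.prod (isCompact_singleton (x := (0 : ℝ))) using 1
    ext p; exact ⟨fun h => ⟨h.2.2, h.2.1⟩, fun h => ⟨trivial, h.2, h.1⟩⟩⟩

variable (F) in
/-- spheres of curvature `t ∈ [0,1]` -/
def hh (e₂ : Emb Y₂ B₂ C₂) : Emb (F × Y₂) (((F × ℝ) × B₂) × I) (ℝ × C₂) :=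
  have c : Continuous fun p : ((F × ℝ) × B₂) × I => rh p.1.1.1 p.1.1.2 (σ p.2) := by
    unfold rh; fun_prop
  have c' : Continuous fun p : ((F × ℝ) × B₂) × I =>
      rh p.1.1.1 p.1.1.2 (σ p.2) + ((σ p.2 : ℝ) * p.1.1.2 + 1) := c.add (by fun_prop)
  have s : ContinuousOn (fun p : ((F × ℝ) × B₂) × I => p.1.2) univ := by fun_prop
  { Ω := {p | 0 < rh p.1.1.1 p.1.1.2 (σ p.2) + ((σ p.2 : ℝ) * p.1.1.2 + 1) ∧ p.1.2 ∈ e₂.Ω}
    π := fun p => ((2 / (rh p.1.1.1 p.1.1.2 (σ p.2) + ((σ p.2 : ℝ) * p.1.1.2 + 1))) • p.1.1.1,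
      e₂.π p.1.2)
    n := fun p => ((σ p.2 : ℝ) * Real.log (rh p.1.1.1 p.1.1.2 (σ p.2)) +
      (1 - σ p.2) * mm p.1.1.1 p.1.1.2 (σ p.2), e₂.n p.1.2)
    op := (isOpen_lt continuous_const c').inter (e₂.op.preimage continuous_fst.snd)
    cπ := ((continuousOn_const.div c'.continuousOn fun _ h => h.1.ne').smul (by fun_prop)).prodMk
      (e₂.cπ.comp (s.mono (subset_univ _)) fun _ h => h.2)
    cn := (((by fun_prop : Continuous fun p : ((F × ℝ) × B₂) × I =>
      (σ p.2 : ℝ)).continuousOn.mul (c.continuousOn.log fun _ h => (rh_pos h.1).ne')).add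
        (by unfold mm; fun_prop)).prodMk (e₂.cn.comp (s.mono (subset_univ _)) fun _ h => h.2)
    cp := fun K hK => by
      have u : Continuous fun p : ((F × ℝ) × B₂) × I => ((pt p.1.1.1 (σ p.2), p.1.2), p.2) := by
        unfold pt; fun_prop (disch := intro; positivity)
      convert ((((fl F).prod e₂).cp K hK).prod isCompact_univ).image u using 1
      ext ⟨⟨⟨x, r⟩, b⟩, τ⟩
      constructor
      · rintro ⟨⟨h, hb⟩, n, k⟩
        have m := (nz_iff (rh_pos h) (σ τ).2.1 (σ τ).2.2).1 (congrArg Prod.fst n)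
        simp only [rh_one m] at h k
        exact ⟨(((_, 0), b), τ), ⟨⟨⟨trivial, hb⟩, Prod.ext rfl (congrArg Prod.snd n :), k⟩, trivial⟩,
          Prod.ext (Prod.ext (eq_pt h m).symm rfl) rfl⟩
      · rintro ⟨⟨⟨⟨y, r'⟩, b'⟩, τ'⟩, ⟨⟨⟨-, hb⟩, n, k⟩, -⟩, e'⟩
        obtain ⟨⟨e, rfl⟩, rfl⟩ : (pt y (σ τ') = (x, r) ∧ b' = b) ∧ τ' = τ := by simpa using e'
        obtain ⟨m, w⟩ := pt_spec y (σ τ')
        have e1 := congrArg Prod.fst e
        rw [e] at m w
        have q : 0 < (1 + (σ τ' : ℝ) ^ 2 * ‖y‖ ^ 2 / 4)⁻¹ := by positivity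
        refine ⟨⟨by simp only [rh_one m, w]; positivity, hb⟩,
          Prod.ext ((nz_iff (by rw [rh_one m]; exact one_pos) (σ τ').2.1 (σ τ').2.2).2 m)
            (congrArg Prod.snd n :), ?_⟩
        simp only [rh_one m, w]
        rwa [← show _ = x from e1, pt, smul_smul, show 2 / (2 * (1 + (σ τ' : ℝ) ^ 2 * ‖y‖ ^ 2 / 4)⁻¹) *
          (1 + (σ τ' : ℝ) ^ 2 * ‖y‖ ^ 2 / 4)⁻¹ = 1 by field_simp, one_smul] }

/-- **the stereographic chart** with pole `v`, times any second factor -/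
theorem sim_sph (j : F →ₗᵢ[ℝ] E) {v : E} (hv : ‖v‖ = 1) (hj : ∀ x, ⟪v, j x⟫_ℝ = 0)
    (d : finrank ℝ E = finrank ℝ F + 1) {φ : F → Metric.sphere (0 : E) 1} (hφ : IsInducing φ)
    (f : ∀ y, (φ y : E) = (‖y‖ ^ 2 + 4)⁻¹ • ((4 : ℝ) • j y + (‖y‖ ^ 2 - 4) • v))
    (e₂ : Emb Y₂ B₂ C₂) (l : Emb (Metric.sphere (0 : E) 1 × Y₂) (E × B₂) (ℝ × C₂))
    (hΩ : ∀ p, p ∈ l.Ω ↔ p.1 ≠ 0 ∧ p.2 ∈ e₂.Ω)
    (hπ : ∀ p ∈ l.Ω, ((l.π p).1 : E) = ‖p.1‖⁻¹ • p.1 ∧ (l.π p).2 = e₂.π p.2)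
    (hn : ∀ p ∈ l.Ω, l.n p = (Real.log ‖p.1‖, e₂.n p.2)) :
    Sim (Prod.map φ id) ((fl F).prod e₂) l := by
  have iv : ∀ x (c : ℝ), ⟪v, j x - c • v⟫_ℝ = -c := fun x c => by
    rw [inner_sub_right, hj, inner_smul_right, real_inner_self_eq_norm_sq, hv]; ring
  have nr : ∀ x (r : ℝ), ‖j x - (r + 1) • v‖ = rh x r 1 := fun x r => by
    rw [rh, eq_comm, Real.sqrt_eq_iff_eq_sq (by positivity) (norm_nonneg _), norm_sub_sq_real,
      inner_smul_right, real_inner_comm, hj, j.norm_map, norm_smul, hv, mul_one, Real.norm_eq_abs,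
      sq_abs]; ring
  let Λ : (F × ℝ) ≃ₗ[ℝ] E := LinearMap.linearEquivOfInjective
    (j.toLinearMap.coprod (-LinearMap.toSpanSingleton ℝ E v))
    ((injective_iff_map_eq_zero _).2 fun p h => by
      have h' : j p.1 - p.2 • v = 0 := (sub_eq_add_neg _ _).trans h
      have := iv p.1 p.2
      rw [h', inner_zero_right, zero_eq_neg] at this
      rw [this, zero_smul, sub_zero, map_eq_zero_iff _ j.injective] at h'
      exact Prod.ext h' this) (by simp [d])
  let A : (F × ℝ) × B₂ ≃ₜ E × B₂ := ((Homeomorph.addRight (0, 1)).trans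
    Λ.toContinuousLinearEquiv.toHomeomorph).prodCongr (.refl _)
  have hA : ∀ x r b, A ((x, r), b) = (j x - (r + 1) • v, b) := fun x r b =>
    Prod.ext (show j (x + 0) + -((r + 1) • v) = _ by rw [add_zero, sub_eq_add_neg]) rfl
  have k : Sim id (cm l A (.refl ℝ _)) l := (sim_iso l (cm l A (.refl ℝ _)) A (.refl ℝ _)
    (by simp [d]) (fun _ => Iff.rfl) (fun _ _ => rfl) fun _ _ => rfl).symm
  suffices h : Sim (Prod.map φ id) ((fl F).prod e₂) (cm l A (.refl ℝ _)) from h.trans k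
  refine sim_ht (B := (F × ℝ) × B₂) (C := ℝ × C₂) (hh F e₂) _ _ (hφ.prodMap .id) ?_ ?_ ?_ ?_
  · rintro ⟨⟨x, r⟩, b⟩ ⟨h, hb⟩
    simp only [unitInterval.symm_zero, Icc.coe_one, one_mul] at h hb
    have p := rh_pos (t := 1) (by rwa [one_mul])
    have o : A ((x, r), b) ∈ l.Ω := (hΩ _).2 ⟨by rw [hA, ← norm_ne_zero_iff, nr]; exact p.ne', hb⟩
    refine ⟨o, Prod.ext (Subtype.ext ?_) (hπ _ o).2.symm, Eq.trans ?_ (hn _ o).symm⟩
    · refine (f _).trans (Eq.trans ?_ (hπ _ o).1.symm)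
      have s := rh_sq x r 1
      simp only [hh, unitInterval.symm_zero, Icc.coe_one, one_mul, hA, nr, mm] at s ⊢
      generalize rh x r 1 = ρ at *
      have n : ‖(2 / (ρ + (r + 1))) • x‖ ^ 2 = 4 * (ρ - (r + 1)) / (ρ + (r + 1)) := by
        rw [norm_smul, mul_pow, Real.norm_eq_abs, sq_abs]
        field_simp; linear_combination -4 * s
      rw [n, show 4 * (ρ - (r + 1)) / (ρ + (r + 1)) + 4 = 8 * ρ / (ρ + (r + 1)) by field_simp; ring,
        map_smul]
      match_scalars <;> field_simp <;> ring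
    · simp [hh, hA, nr]
  · rintro ⟨⟨x, r⟩, b⟩ o n ⟨y, hy⟩
    have o' := (hΩ _).1 o
    have n1 : ‖(A ((x, r), b)).1‖ = 1 := (log_zero o'.1).1 (congrArg Prod.fst ((hn _ o).symm.trans n))
    have := congrArg (fun w : E => ⟪v, w⟫_ℝ)
      ((f y.1).symm.trans ((congrArg (fun w => (w.1 : E)) hy).trans (hπ _ o).1))
    simp only [n1, inv_one, one_smul] at this
    rw [hA, nr] at n1
    simp only [hA, iv, inner_smul_right, inner_add_right, hj, real_inner_self_eq_norm_sq, hv] at this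
    refine ⟨?_, o'.2⟩
    simp only [unitInterval.symm_zero, Icc.coe_one, one_mul, n1]
    have q : 0 < ‖y.1‖ ^ 2 + 4 := by positivity
    field_simp at this
    nlinarith
  · rintro ⟨⟨x, r⟩, b⟩ ⟨-, hb⟩
    exact ⟨⟨trivial, hb⟩, by simp [hh, rh, fl, Emb.prod, one_add_one_eq_two],
      by simp [hh, mm, fl, Emb.prod]⟩
  · rintro ⟨⟨x, r⟩, b⟩ ⟨-, hb⟩ -
    exact ⟨by simp [rh], hb⟩

/-- homeomorphisms of the chart -/
theorem sim_fl {F' : Type} [NormedAddCommGroup F'] [InnerProductSpace ℝ F'] [FiniteDimensional ℝ F']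
    (ψ : F' ≃ₜ F) (d : finrank ℝ F' = finrank ℝ F) (e₂ : Emb Y₂ B₂ C₂) :
    Sim (Prod.map ψ id) ((fl F').prod e₂) ((fl F).prod e₂) :=
  let A : (F × ℝ) × B₂ ≃ₜ (F' × ℝ) × B₂ := (ψ.symm.prodCongr (.refl _)).prodCongr (.refl _)
  Sim.trans (ψ := id) (φ := Prod.map ψ id) (sim_iso _ (cm ((fl F').prod e₂) A (.refl ℝ _)) A (.refl ℝ _) (by simp [d])
    (fun _ => Iff.rfl) (fun _ _ => rfl) fun _ _ => rfl)
    (sim_opn _ ((fl F).prod e₂) (ψ.isInducing.prodMap .id)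
      (fun p h => ⟨h, Prod.ext (ψ.apply_symm_apply p.1.1) rfl, rfl⟩) fun p h _ _ => h)

/-- the chart of Mathlib -/
theorem sim_st {n : ℕ} [Fact (finrank ℝ E = n + 1)] (v : Metric.sphere (0 : E) 1)
    (e₂ : Emb Y₂ B₂ C₂) (l : Emb (Metric.sphere (0 : E) 1 × Y₂) (E × B₂) (ℝ × C₂))
    (hΩ : ∀ p, p ∈ l.Ω ↔ p.1 ≠ 0 ∧ p.2 ∈ e₂.Ω)
    (hπ : ∀ p ∈ l.Ω, ((l.π p).1 : E) = ‖p.1‖⁻¹ • p.1 ∧ (l.π p).2 = e₂.π p.2)
    (hn : ∀ p ∈ l.Ω, l.n p = (Real.log ‖p.1‖, e₂.n p.2)) :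
    ∃ φ : EuclideanSpace ℝ (Fin n) → Metric.sphere (0 : E) 1, IsOpenEmbedding φ ∧
      range φ = {v}ᶜ ∧ (∀ y, ⟪(φ y : E), v⟫_ℝ = (‖y‖ ^ 2 - 4) / (‖y‖ ^ 2 + 4)) ∧
      Sim (Prod.map φ id) ((fl _).prod e₂) l := by
  have o := (stereographic' n v).symm.isOpenEmbedding (stereographic'_target v)
  let U := (OrthonormalBasis.fromOrthogonalSpanSingleton (𝕜 := ℝ) n
    (ne_zero_of_mem_unit_sphere v)).repr
  let j : EuclideanSpace ℝ (Fin n) →ₗᵢ[ℝ] E :=
    (ℝ ∙ (v : E))ᗮ.subtypeₗᵢ.comp U.symm.toLinearIsometry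
  have hv := norm_eq_of_mem_sphere v
  have hj : ∀ x, ⟪(v : E), j x⟫_ℝ = 0 := fun x =>
    Submodule.mem_orthogonal_singleton_iff_inner_right.1 (U.symm x).2
  have f : ∀ y, ((stereographic' n v).symm y : E) =
      (‖y‖ ^ 2 + 4)⁻¹ • ((4 : ℝ) • j y + (‖y‖ ^ 2 - 4) • (v : E)) := fun y => by
    rw [stereographic'_symm_apply, smul_add, ← j.norm_map]; rfl
  refine ⟨_, o, ?_, fun y => ?_, sim_sph j hv hj (by simpa using Fact.out) o.isInducing f e₂ l hΩ hπ hn⟩
  · rw [← stereographic'_source (n := n) v, ← image_univ, ← stereographic'_target (n := n) v]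
    exact (stereographic' n v).symm.image_source_eq_target
  · rw [f, real_inner_comm]
    simp only [inner_smul_right, inner_add_right, hj, real_inner_self_eq_norm_sq, hv]
    ring
end sph

end Crest.Agent.N218.In.Ch

end
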